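import Vale.Agent.P043.H113.Conn
import Mathlib.Data.ZMod.Basic
import Mathlib.Algebra.Order.Group.Finset
import Mathlib.Data.Int.Interval
import Mathlib.Tactic

/-! Block (3) of `P043.ConnectedTiles`: the labelled jigsaw. Part 1: cells. -/

namespace Vale.Agent.P043.H870

open H113

/-- the dents of a decorated cube, for the labels `L0, L1, L2` -/
def Dent (L0 L1 L2 a b c : ℤ) : Prop :=
  (b = 4 ∧ c = 4 ∧ (a = 0 ∨ a = 1)) ∨ (b = L0 ∧ c = L0 ∧ a = 0) ∨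
  (a = 4 ∧ c = 4 ∧ (b = 0 ∨ b = 1)) ∨ (a = L1 ∧ c = L1 ∧ b = 0) ∨
  (a = 4 ∧ b = 4 ∧ (c = 0 ∨ c = 1)) ∨ (a = L2 ∧ b = L2 ∧ c = 0)

/-- the bumps of a decorated cube of side `K` with label `M` -/
def Bump (K M a b c : ℤ) : Prop :=
  (b = 4 ∧ c = 4 ∧ (a = K ∨ a = K + 1)) ∨ (b = M ∧ c = M ∧ a = K) ∨
  (a = 4 ∧ c = 4 ∧ (b = K ∨ b = K + 1)) ∨ (a = M ∧ c = M ∧ b = K) ∨
  (a = 4 ∧ b = 4 ∧ (c = K ∨ c = K + 1)) ∨ (a = M ∧ b = M ∧ c = K)

/-- in the cube -/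
def Cube (K a b c : ℤ) : Prop := 0 ≤ a ∧ a < K ∧ 0 ≤ b ∧ b < K ∧ 0 ≤ c ∧ c < K

/-- the cells of a decorated cube -/
def In (K L0 L1 L2 M a b c : ℤ) : Prop :=
  (Cube K a b c ∧ ¬ Dent L0 L1 L2 a b c) ∨ Bump K M a b c

/-- admissible label -/
def Ok (K L : ℤ) : Prop := 8 ≤ L ∧ L + 4 < K - 4 ∧ 4 ∣ L

section
variable {K L0 L1 L2 M a b c : ℤ}

/-- shape of the dents -/
theorem Dent.shape (h0 : Ok K L0) (h1 : Ok K L1) (h2 : Ok K L2) (h : Dent L0 L1 L2 a b c) :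
    (0 ≤ a ∧ a ≤ 1 ∧ b = c ∧ 4 ≤ b ∧ b < K - 4 ∧ 4 ∣ b) ∨
    (0 ≤ b ∧ b ≤ 1 ∧ a = c ∧ 4 ≤ a ∧ a < K - 4 ∧ 4 ∣ a) ∨
    (0 ≤ c ∧ c ≤ 1 ∧ a = b ∧ 4 ≤ a ∧ a < K - 4 ∧ 4 ∣ a) := by
  unfold Ok at h0 h1 h2
  unfold Dent at h
  omega

theorem Dent.cube (h0 : Ok K L0) (h1 : Ok K L1) (h2 : Ok K L2) (h : Dent L0 L1 L2 a b c) :
    Cube K a b c := by
  have := h.shape h0 h1 h2
  unfold Ok at h0
  unfold Cube
  omega

theorem In.body (h : Cube K a b c) (h' : ¬ Dent L0 L1 L2 a b c) : In K L0 L1 L2 M a b c :=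
  Or.inl ⟨h, h'⟩

theorem dent_of_not_in (h : ¬ In K L0 L1 L2 M a b c) (h' : Cube K a b c) :
    Dent L0 L1 L2 a b c := by
  by_contra h2
  exact h (Or.inl ⟨h', h2⟩)

/-- L1, a body cell has a neighbour in each transversal plane -/
theorem two_dents (h0 : Ok K L0) (h1 : Ok K L1) (h2 : Ok K L2) {a' b' c' : ℤ}
    (h : Dent L0 L1 L2 a b c) (h' : Dent L0 L1 L2 a' b' c')
    (hh : (a = a' ∧ (b - b' = 1 ∨ b' - b = 1) ∧ (c - c' = 1 ∨ c' - c = 1)) ∨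
      (b = b' ∧ (a - a' = 1 ∨ a' - a = 1) ∧ (c - c' = 1 ∨ c' - c = 1)) ∨
      (c = c' ∧ (b - b' = 1 ∨ b' - b = 1) ∧ (a - a' = 1 ∨ a' - a = 1))) : False := by
  have e1 := h.shape h0 h1 h2
  have e2 := h'.shape h0 h1 h2
  omega

theorem nb1 (hK : 2 ≤ K) (h : Cube K a b c)
    (u : ¬ In K L0 L1 L2 M (a + 1) b c) (v : ¬ In K L0 L1 L2 M (a - 1) b c) :
    Dent L0 L1 L2 (a + 1) b c ∨ Dent L0 L1 L2 (a - 1) b c := by
  by_cases h1 : a + 1 < K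
  · exact Or.inl (dent_of_not_in u (by unfold Cube at *; omega))
  · exact Or.inr (dent_of_not_in v (by unfold Cube at *; omega))

theorem nb2 (hK : 2 ≤ K) (h : Cube K a b c)
    (u : ¬ In K L0 L1 L2 M a (b + 1) c) (v : ¬ In K L0 L1 L2 M a (b - 1) c) :
    Dent L0 L1 L2 a (b + 1) c ∨ Dent L0 L1 L2 a (b - 1) c := by
  by_cases h1 : b + 1 < K
  · exact Or.inl (dent_of_not_in u (by unfold Cube at *; omega))
  · exact Or.inr (dent_of_not_in v (by unfold Cube at *; omega))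

theorem nb3 (hK : 2 ≤ K) (h : Cube K a b c)
    (u : ¬ In K L0 L1 L2 M a b (c + 1)) (v : ¬ In K L0 L1 L2 M a b (c - 1)) :
    Dent L0 L1 L2 a b (c + 1) ∨ Dent L0 L1 L2 a b (c - 1) := by
  by_cases h1 : c + 1 < K
  · exact Or.inl (dent_of_not_in u (by unfold Cube at *; omega))
  · exact Or.inr (dent_of_not_in v (by unfold Cube at *; omega))

theorem body_hi1 (h0 : Ok K L0) (h1 : Ok K L1) (h2 : Ok K L2) (h : Cube K a b c)
    (h' : K - 4 ≤ a ∨ K - 4 ≤ b ∨ K - 4 ≤ c) : In K L0 L1 L2 M a b c := by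
  refine In.body h fun hd => ?_
  have := hd.shape h0 h1 h2
  unfold Ok at h0
  omega

theorem body_lo (h0 : Ok K L0) (h1 : Ok K L1) (h2 : Ok K L2) (h : Cube K a b c)
    (h' : (a < 4 ∧ b < 4) ∨ (a < 4 ∧ c < 4) ∨ (b < 4 ∧ c < 4)) : In K L0 L1 L2 M a b c := by
  refine In.body h fun hd => ?_
  have := hd.shape h0 h1 h2
  omega

theorem body_ge2 (h0 : Ok K L0) (h1 : Ok K L1) (h2 : Ok K L2) (h : Cube K a b c)
    (ha : 2 ≤ a) (hb : 2 ≤ b) (hc : 2 ≤ c) : In K L0 L1 L2 M a b c := by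
  refine In.body h fun hd => ?_
  have := hd.shape h0 h1 h2
  omega

/-- L1, direction 0 -/
theorem tip0 (h0 : Ok K L0) (h1 : Ok K L1) (h2 : Ok K L2) (hM : Ok K M)
    (h : In K L0 L1 L2 M a b c) (n1 : ¬ In K L0 L1 L2 M (a + 1) b c)
    (n2 : ¬ In K L0 L1 L2 M a (b + 1) c) (n3 : ¬ In K L0 L1 L2 M a (b - 1) c)
    (n4 : ¬ In K L0 L1 L2 M a b (c + 1)) (n5 : ¬ In K L0 L1 L2 M a b (c - 1)) :
    (a = K + 1 ∧ b = 4 ∧ c = 4) ∨ (a = K ∧ b = M ∧ c = M) := by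
  have hK : 2 ≤ K := by unfold Ok at h0; omega
  rcases h with ⟨hc, -⟩ | hb
  · exfalso
    rcases nb2 hK hc n2 n3 with e | e <;> rcases nb3 hK hc n4 n5 with f | f <;>
      exact two_dents h0 h1 h2 e f (by omega)
  · rcases hb with ⟨hb, hc, ha | ha⟩ | ⟨hb, hc, ha⟩ | ⟨ha, hc, hb | hb⟩ | ⟨ha, hc, hb⟩ |
      ⟨ha, hb, hc | hc⟩ | ⟨ha, hb, hc⟩
    · exact absurd (Or.inr (Or.inl ⟨hb, hc, Or.inr (by omega)⟩)) n1
    · exact Or.inl ⟨ha, hb, hc⟩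
    · exact Or.inr ⟨ha, hb, hc⟩
    · exact absurd (body_hi1 h0 h1 h2 (by unfold Cube Ok at *; omega) (by omega)) n3
    · exact absurd (Or.inr (Or.inr (Or.inr (Or.inl ⟨ha, hc, Or.inl (by omega)⟩)))) n3
    · exact absurd (body_hi1 h0 h1 h2 (by unfold Cube Ok at *; omega) (by omega)) n3
    · exact absurd (body_hi1 h0 h1 h2 (by unfold Cube Ok at *; omega) (by omega)) n5
    · exact absurd (Or.inr (Or.inr (Or.inr (Or.inr (Or.inr (Or.inl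
        ⟨ha, hb, Or.inl (by omega)⟩)))))) n5
    · exact absurd (body_hi1 h0 h1 h2 (by unfold Cube Ok at *; omega) (by omega)) n5

/-- L1, direction 1 -/
theorem tip1 (h0 : Ok K L0) (h1 : Ok K L1) (h2 : Ok K L2) (hM : Ok K M)
    (h : In K L0 L1 L2 M a b c) (n1 : ¬ In K L0 L1 L2 M a (b + 1) c)
    (n2 : ¬ In K L0 L1 L2 M (a + 1) b c) (n3 : ¬ In K L0 L1 L2 M (a - 1) b c)
    (n4 : ¬ In K L0 L1 L2 M a b (c + 1)) (n5 : ¬ In K L0 L1 L2 M a b (c - 1)) :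
    (b = K + 1 ∧ a = 4 ∧ c = 4) ∨ (b = K ∧ a = M ∧ c = M) := by
  have hK : 2 ≤ K := by unfold Ok at h0; omega
  rcases h with ⟨hc, -⟩ | hb
  · exfalso
    rcases nb1 hK hc n2 n3 with e | e <;> rcases nb3 hK hc n4 n5 with f | f <;>
      exact two_dents h0 h1 h2 e f (by omega)
  · rcases hb with ⟨hb, hc, ha | ha⟩ | ⟨hb, hc, ha⟩ | ⟨ha, hc, hb | hb⟩ | ⟨ha, hc, hb⟩ |
      ⟨ha, hb, hc | hc⟩ | ⟨ha, hb, hc⟩
    · exact absurd (body_hi1 h0 h1 h2 (by unfold Cube Ok at *; omega) (by omega)) n3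
    · exact absurd (Or.inr (Or.inl ⟨hb, hc, Or.inl (by omega)⟩)) n3
    · exact absurd (body_hi1 h0 h1 h2 (by unfold Cube Ok at *; omega) (by omega)) n3
    · exact absurd (Or.inr (Or.inr (Or.inr (Or.inl ⟨ha, hc, Or.inr (by omega)⟩)))) n1
    · exact Or.inl ⟨hb, ha, hc⟩
    · exact Or.inr ⟨hb, ha, hc⟩
    · exact absurd (body_hi1 h0 h1 h2 (by unfold Cube Ok at *; omega) (by omega)) n5
    · exact absurd (Or.inr (Or.inr (Or.inr (Or.inr (Or.inr (Or.inl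
        ⟨ha, hb, Or.inl (by omega)⟩)))))) n5
    · exact absurd (body_hi1 h0 h1 h2 (by unfold Cube Ok at *; omega) (by omega)) n5

/-- L1, direction 2 -/
theorem tip2 (h0 : Ok K L0) (h1 : Ok K L1) (h2 : Ok K L2) (hM : Ok K M)
    (h : In K L0 L1 L2 M a b c) (n1 : ¬ In K L0 L1 L2 M a b (c + 1))
    (n2 : ¬ In K L0 L1 L2 M (a + 1) b c) (n3 : ¬ In K L0 L1 L2 M (a - 1) b c)
    (n4 : ¬ In K L0 L1 L2 M a (b + 1) c) (n5 : ¬ In K L0 L1 L2 M a (b - 1) c) :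
    (c = K + 1 ∧ a = 4 ∧ b = 4) ∨ (c = K ∧ a = M ∧ b = M) := by
  have hK : 2 ≤ K := by unfold Ok at h0; omega
  rcases h with ⟨hc, -⟩ | hb
  · exfalso
    rcases nb1 hK hc n2 n3 with e | e <;> rcases nb2 hK hc n4 n5 with f | f <;>
      exact two_dents h0 h1 h2 e f (by omega)
  · rcases hb with ⟨hb, hc, ha | ha⟩ | ⟨hb, hc, ha⟩ | ⟨ha, hc, hb | hb⟩ | ⟨ha, hc, hb⟩ |
      ⟨ha, hb, hc | hc⟩ | ⟨ha, hb, hc⟩
    · exact absurd (body_hi1 h0 h1 h2 (by unfold Cube Ok at *; omega) (by omega)) n3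
    · exact absurd (Or.inr (Or.inl ⟨hb, hc, Or.inl (by omega)⟩)) n3
    · exact absurd (body_hi1 h0 h1 h2 (by unfold Cube Ok at *; omega) (by omega)) n3
    · exact absurd (body_hi1 h0 h1 h2 (by unfold Cube Ok at *; omega) (by omega)) n5
    · exact absurd (Or.inr (Or.inr (Or.inr (Or.inl ⟨ha, hc, Or.inl (by omega)⟩)))) n5
    · exact absurd (body_hi1 h0 h1 h2 (by unfold Cube Ok at *; omega) (by omega)) n5
    · exact absurd (Or.inr (Or.inr (Or.inr (Or.inr (Or.inr (Or.inl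
        ⟨ha, hb, Or.inr (by omega)⟩)))))) n1
    · exact Or.inl ⟨hc, ha, hb⟩
    · exact Or.inr ⟨hc, ha, hb⟩

/-- L2: two decorated cubes at distance less than `K` overlap -/
theorem overlap (h0 : Ok K L0) (h1 : Ok K L1) (h2 : Ok K L2) {L0' L1' L2' M' u v w : ℤ}
    (h0' : Ok K L0') (h1' : Ok K L1') (h2' : Ok K L2')
    (hu : -K < u ∧ u < K) (hv : -K < v ∧ v < K) (hw : -K < w ∧ w < K) :
    ∃ a b c, In K L0 L1 L2 M a b c ∧ In K L0' L1' L2' M' (a - u) (b - v) (c - w) := by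
  have hK : 16 < K := by unfold Ok at h0; omega
  by_cases pu : 0 ≤ u <;> by_cases pv : 0 ≤ v <;> by_cases pw : 0 ≤ w
  · exact ⟨u, v, K - 1, body_hi1 h0 h1 h2 (by unfold Cube; omega) (by omega),
      body_lo h0' h1' h2' (by unfold Cube; omega) (by omega)⟩
  · exact ⟨u, K - 1, K - 1 + w, body_hi1 h0 h1 h2 (by unfold Cube; omega) (by omega),
      body_hi1 h0' h1' h2' (by unfold Cube; omega) (by omega)⟩
  · exact ⟨u, K - 1 + v, K - 1, body_hi1 h0 h1 h2 (by unfold Cube; omega) (by omega),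
      body_hi1 h0' h1' h2' (by unfold Cube; omega) (by omega)⟩
  · exact ⟨K - 1, K - 1 + v, K - 1 + w, body_hi1 h0 h1 h2 (by unfold Cube; omega) (by omega),
      body_hi1 h0' h1' h2' (by unfold Cube; omega) (by omega)⟩
  · exact ⟨K - 1 + u, K - 1, K - 1, body_hi1 h0 h1 h2 (by unfold Cube; omega) (by omega),
      body_hi1 h0' h1' h2' (by unfold Cube; omega) (by omega)⟩
  · exact ⟨K - 1 + u, K - 1, K - 1 + w, body_hi1 h0 h1 h2 (by unfold Cube; omega) (by omega),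
      body_hi1 h0' h1' h2' (by unfold Cube; omega) (by omega)⟩
  · exact ⟨K - 1 + u, K - 1 + v, K - 1, body_hi1 h0 h1 h2 (by unfold Cube; omega) (by omega),
      body_hi1 h0' h1' h2' (by unfold Cube; omega) (by omega)⟩
  · exact ⟨0, 0, K - 1 + w, body_lo h0 h1 h2 (by unfold Cube; omega) (by omega),
      body_hi1 h0' h1' h2' (by unfold Cube; omega) (by omega)⟩

end

end Vale.Agent.P043.H870
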