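import Vale.Agent.P043.H870.Jig

/-! Block (3) of `P043.ConnectedTiles`: the labelled jigsaw. Part 2: the pieces, tiling,
connectedness, adjacency. -/

namespace Vale.Agent.P043.H870

open H113

/-- code of `p` modulo `k` -/
noncomputable def lab (k : ℕ) [NeZero k] (p : Fin 3 → ℤ) : ℕ :=
  (Fintype.equivFin (Fin 3 → ZMod k) (fun i => ((p i : ℤ) : ZMod k))).val

/-- the number of labels -/
noncomputable def cN (k : ℕ) [NeZero k] : ℕ := Fintype.card (Fin 3 → ZMod k)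

theorem lab_lt (k : ℕ) [NeZero k] (p : Fin 3 → ℤ) : lab k p < cN k :=
  (Fintype.equivFin (Fin 3 → ZMod k) (fun i => ((p i : ℤ) : ZMod k))).isLt

theorem lab_eq (k : ℕ) [NeZero k] (p q : Fin 3 → ℤ) :
    lab k p = lab k q ↔ ∀ i, (k : ℤ) ∣ p i - q i := by
  unfold lab
  rw [← Fin.ext_iff, (Fintype.equivFin (Fin 3 → ZMod k)).injective.eq_iff, funext_iff]
  refine forall_congr' fun i => ?_
  rw [eq_comm, ZMod.intCast_eq_intCast_iff_dvd_sub]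

/-- the label of `p` -/
noncomputable def LL (k : ℕ) [NeZero k] (p : Fin 3 → ℤ) : ℤ := 8 + 4 * (lab k p : ℤ)

/-- the side of the cubes -/
noncomputable def KN (k : ℕ) [NeZero k] : ℕ := 16 + 4 * cN k

theorem ok_LL (k : ℕ) [NeZero k] (p : Fin 3 → ℤ) : Ok (KN k : ℤ) (LL k p) := by
  have h := lab_lt k p
  unfold Ok LL KN
  push_cast
  refine ⟨by omega, by omega, by omega⟩

theorem LL_eq (k : ℕ) [NeZero k] (p q : Fin 3 → ℤ) :
    LL k p = LL k q ↔ ∀ i, (k : ℤ) ∣ p i - q i := by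
  rw [← lab_eq]
  unfold LL
  omega

/-- membership -/
def InD (k : ℕ) [NeZero k] (p : Fin 3 → ℤ) (a b c : ℤ) : Prop :=
  In (KN k : ℤ) (LL k (p - Pi.single 0 1)) (LL k (p - Pi.single 1 1)) (LL k (p - Pi.single 2 1))
    (LL k p) a b c

/-- the decorated cube of the label `p` -/
noncomputable def DD (k : ℕ) [NeZero k] (p : Fin 3 → ℤ) : Finset (Fin 3 → ℤ) :=
  @Finset.filter _ (fun x => InD k p (x 0) (x 1) (x 2)) (Classical.decPred _)
    (Fintype.piFinset fun _ => Finset.Icc (0 : ℤ) (KN k + 1))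

theorem mem_DD {k : ℕ} [NeZero k] {p x : Fin 3 → ℤ} :
    x ∈ DD k p ↔ InD k p (x 0) (x 1) (x 2) := by
  unfold DD
  rw [@Finset.mem_filter _ _ (Classical.decPred _), Fintype.mem_piFinset]
  refine ⟨fun h => h.2, fun h => ⟨?_, h⟩⟩
  have hM := ok_LL k p
  unfold Ok at hM
  rcases h with ⟨hc, -⟩ | hb
  · unfold Cube at hc
    intro i
    rw [Finset.mem_Icc]
    fin_cases i <;> simp only [Fin.zero_eta, Fin.mk_one, Fin.reduceFinMk] <;> omega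
  · unfold Bump at hb
    intro i
    rw [Finset.mem_Icc]
    fin_cases i <;> simp only [Fin.zero_eta, Fin.mk_one, Fin.reduceFinMk] <;> omega

theorem DD_congr {k : ℕ} [NeZero k] {p q : Fin 3 → ℤ} (h : ∀ i, (k : ℤ) ∣ p i - q i) :
    DD k p = DD k q := by
  have h1 : ∀ v, LL k (p - v) = LL k (q - v) := fun v => by
    rw [LL_eq]
    intro i
    have : (p - v) i - (q - v) i = p i - q i := by simp
    rw [this]
    exact h i
  have h2 : LL k p = LL k q := (LL_eq k p q).2 h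
  ext x
  rw [mem_DD, mem_DD, InD, InD, h1, h1, h1, h2]

/-! ### the tiling -/

theorem div_of {K x p : ℤ} (h0 : 0 ≤ x - K * p) (h1 : x - K * p < K) :
    x / K = p ∧ x % K = x - K * p :=
  (Int.ediv_emod_unique (by omega)).2 ⟨by ring, h0, h1⟩

theorem div_of' {K x p r : ℤ} (h0 : x - K * p = K + r) (h1 : 0 ≤ r) (h2 : r < K) :
    x / K = p + 1 ∧ x % K = r :=
  (Int.ediv_emod_unique (by omega)).2 ⟨by linear_combination -h0, h1, h2⟩

theorem vec_eq {x y : Fin 3 → ℤ} (h0 : x 0 = y 0) (h1 : x 1 = y 1) (h2 : x 2 = y 2) : x = y := by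
  funext i
  fin_cases i
  · exact h0
  · exact h1
  · exact h2

/-- the possible positions of the cube which covers a cell -/
theorem sol {k : ℕ} [NeZero k] {x p : Fin 3 → ℤ} (h : x - (KN k : ℤ) • p ∈ DD k p) :
    ((x 0 / (KN k : ℤ) = p 0 ∧ x 1 / (KN k : ℤ) = p 1 ∧ x 2 / (KN k : ℤ) = p 2) ∧
      ¬ Dent (LL k (p - Pi.single 0 1)) (LL k (p - Pi.single 1 1)) (LL k (p - Pi.single 2 1))
        (x 0 % (KN k : ℤ)) (x 1 % (KN k : ℤ)) (x 2 % (KN k : ℤ))) ∨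
    ((x 0 / (KN k : ℤ) = p 0 + 1 ∧ x 1 / (KN k : ℤ) = p 1 ∧ x 2 / (KN k : ℤ) = p 2) ∧
      ((x 1 % (KN k : ℤ) = 4 ∧ x 2 % (KN k : ℤ) = 4 ∧
        (x 0 % (KN k : ℤ) = 0 ∨ x 0 % (KN k : ℤ) = 1)) ∨
      (x 1 % (KN k : ℤ) = LL k p ∧ x 2 % (KN k : ℤ) = LL k p ∧ x 0 % (KN k : ℤ) = 0))) ∨
    ((x 0 / (KN k : ℤ) = p 0 ∧ x 1 / (KN k : ℤ) = p 1 + 1 ∧ x 2 / (KN k : ℤ) = p 2) ∧
      ((x 0 % (KN k : ℤ) = 4 ∧ x 2 % (KN k : ℤ) = 4 ∧
        (x 1 % (KN k : ℤ) = 0 ∨ x 1 % (KN k : ℤ) = 1)) ∨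
      (x 0 % (KN k : ℤ) = LL k p ∧ x 2 % (KN k : ℤ) = LL k p ∧ x 1 % (KN k : ℤ) = 0))) ∨
    ((x 0 / (KN k : ℤ) = p 0 ∧ x 1 / (KN k : ℤ) = p 1 ∧ x 2 / (KN k : ℤ) = p 2 + 1) ∧
      ((x 0 % (KN k : ℤ) = 4 ∧ x 1 % (KN k : ℤ) = 4 ∧
        (x 2 % (KN k : ℤ) = 0 ∨ x 2 % (KN k : ℤ) = 1)) ∨
      (x 0 % (KN k : ℤ) = LL k p ∧ x 1 % (KN k : ℤ) = LL k p ∧ x 2 % (KN k : ℤ) = 0))) := by
  rw [mem_DD] at h
  have hM := ok_LL k p
  set K : ℤ := (KN k : ℤ) with hK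
  unfold Ok at hM
  have e : ∀ i, (x - K • p) i = x i - K * p i := fun i => by simp
  rw [InD, e, e, e, ← hK] at h
  rcases h with ⟨hc, hd⟩ | hb
  · unfold Cube at hc
    obtain ⟨a0, a1⟩ := div_of hc.1 hc.2.1
    obtain ⟨b0, b1⟩ := div_of hc.2.2.1 hc.2.2.2.1
    obtain ⟨c0, c1⟩ := div_of hc.2.2.2.2.1 hc.2.2.2.2.2
    left
    refine ⟨⟨a0, b0, c0⟩, ?_⟩
    rw [a1, b1, c1]
    exact hd
  · rcases hb with ⟨hb, hc, ha⟩ | ⟨hb, hc, ha⟩ | ⟨ha, hc, hb⟩ | ⟨ha, hc, hb⟩ |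
      ⟨ha, hb, hc⟩ | ⟨ha, hb, hc⟩
    · right; left
      obtain ⟨b0, b1⟩ := div_of (K := K) (x := x 1) (p := p 1) (by omega) (by omega)
      obtain ⟨c0, c1⟩ := div_of (K := K) (x := x 2) (p := p 2) (by omega) (by omega)
      obtain ⟨a0, a1⟩ : x 0 / K = p 0 + 1 ∧ (x 0 % K = 0 ∨ x 0 % K = 1) := by
        rcases ha with ha | ha
        · have := div_of' (r := 0) (by rw [ha]; ring) le_rfl (by omega)
          exact ⟨this.1, Or.inl this.2⟩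
        · have := div_of' (r := 1) (by rw [ha]) (by omega) (by omega)
          exact ⟨this.1, Or.inr this.2⟩
      exact ⟨⟨a0, b0, c0⟩, Or.inl ⟨by omega, by omega, a1⟩⟩
    · right; left
      obtain ⟨b0, b1⟩ := div_of (K := K) (x := x 1) (p := p 1) (by omega) (by omega)
      obtain ⟨c0, c1⟩ := div_of (K := K) (x := x 2) (p := p 2) (by omega) (by omega)
      obtain ⟨a0, a1⟩ := div_of' (x := x 0) (p := p 0) (K := K) (r := 0) (by rw [ha]; ring) le_rfl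
        (by omega)
      exact ⟨⟨a0, b0, c0⟩, Or.inr ⟨by omega, by omega, a1⟩⟩
    · right; right; left
      obtain ⟨b0, b1⟩ := div_of (K := K) (x := x 0) (p := p 0) (by omega) (by omega)
      obtain ⟨c0, c1⟩ := div_of (K := K) (x := x 2) (p := p 2) (by omega) (by omega)
      obtain ⟨a0, a1⟩ : x 1 / K = p 1 + 1 ∧ (x 1 % K = 0 ∨ x 1 % K = 1) := by
        rcases hb with ha | ha
        · have := div_of' (r := 0) (by rw [ha]; ring) le_rfl (by omega)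
          exact ⟨this.1, Or.inl this.2⟩
        · have := div_of' (r := 1) (by rw [ha]) (by omega) (by omega)
          exact ⟨this.1, Or.inr this.2⟩
      exact ⟨⟨b0, a0, c0⟩, Or.inl ⟨by omega, by omega, a1⟩⟩
    · right; right; left
      obtain ⟨b0, b1⟩ := div_of (K := K) (x := x 0) (p := p 0) (by omega) (by omega)
      obtain ⟨c0, c1⟩ := div_of (K := K) (x := x 2) (p := p 2) (by omega) (by omega)
      obtain ⟨a0, a1⟩ := div_of' (x := x 1) (p := p 1) (K := K) (r := 0) (by rw [hb]; ring) le_rfl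
        (by omega)
      exact ⟨⟨b0, a0, c0⟩, Or.inr ⟨by omega, by omega, a1⟩⟩
    · right; right; right
      obtain ⟨b0, b1⟩ := div_of (K := K) (x := x 0) (p := p 0) (by omega) (by omega)
      obtain ⟨c0, c1⟩ := div_of (K := K) (x := x 1) (p := p 1) (by omega) (by omega)
      obtain ⟨a0, a1⟩ : x 2 / K = p 2 + 1 ∧ (x 2 % K = 0 ∨ x 2 % K = 1) := by
        rcases hc with ha | ha
        · have := div_of' (r := 0) (by rw [ha]; ring) le_rfl (by omega)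
          exact ⟨this.1, Or.inl this.2⟩
        · have := div_of' (r := 1) (by rw [ha]) (by omega) (by omega)
          exact ⟨this.1, Or.inr this.2⟩
      exact ⟨⟨b0, c0, a0⟩, Or.inl ⟨by omega, by omega, a1⟩⟩
    · right; right; right
      obtain ⟨b0, b1⟩ := div_of (K := K) (x := x 0) (p := p 0) (by omega) (by omega)
      obtain ⟨c0, c1⟩ := div_of (K := K) (x := x 1) (p := p 1) (by omega) (by omega)
      obtain ⟨a0, a1⟩ := div_of' (x := x 2) (p := p 2) (K := K) (r := 0) (by rw [hc]; ring) le_rfl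
        (by omega)
      exact ⟨⟨b0, c0, a0⟩, Or.inr ⟨by omega, by omega, a1⟩⟩

theorem LL0 {k : ℕ} [NeZero k] {r s : Fin 3 → ℤ} (h0 : r 0 = s 0 + 1) (h1 : r 1 = s 1)
    (h2 : r 2 = s 2) : LL k (r - Pi.single 0 1) = LL k s := by
  congr 1
  refine vec_eq ?_ ?_ ?_
  · simp [h0]
  · simp [h1]
  · simp [h2]

theorem LL1 {k : ℕ} [NeZero k] {r s : Fin 3 → ℤ} (h0 : r 0 = s 0) (h1 : r 1 = s 1 + 1)
    (h2 : r 2 = s 2) : LL k (r - Pi.single 1 1) = LL k s := by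
  congr 1
  refine vec_eq ?_ ?_ ?_
  · simp [h0]
  · simp [h1]
  · simp [h2]

theorem LL2 {k : ℕ} [NeZero k] {r s : Fin 3 → ℤ} (h0 : r 0 = s 0) (h1 : r 1 = s 1)
    (h2 : r 2 = s 2 + 1) : LL k (r - Pi.single 2 1) = LL k s := by
  congr 1
  refine vec_eq ?_ ?_ ?_
  · simp [h0]
  · simp [h1]
  · simp [h2]

theorem uniq_body {k : ℕ} [NeZero k] {x p q : Fin 3 → ℤ}
    (hd : ¬ Dent (LL k (p - Pi.single 0 1)) (LL k (p - Pi.single 1 1))
      (LL k (p - Pi.single 2 1)) (x 0 % (KN k : ℤ)) (x 1 % (KN k : ℤ)) (x 2 % (KN k : ℤ)))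
    (hp : x 0 / (KN k : ℤ) = p 0 ∧ x 1 / (KN k : ℤ) = p 1 ∧ x 2 / (KN k : ℤ) = p 2)
    (hq : x - (KN k : ℤ) • q ∈ DD k q) : p = q := by
  rcases sol hq with ⟨e, -⟩ | ⟨e, f⟩ | ⟨e, f⟩ | ⟨e, f⟩
  · exact vec_eq (hp.1.symm.trans e.1) (hp.2.1.symm.trans e.2.1) (hp.2.2.symm.trans e.2.2)
  · refine absurd ?_ hd
    rw [LL0 (hp.1.symm.trans e.1) (hp.2.1.symm.trans e.2.1) (hp.2.2.symm.trans e.2.2)]
    rcases f with f | f
    · exact Or.inl f
    · exact Or.inr (Or.inl f)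
  · refine absurd ?_ hd
    rw [LL1 (hp.1.symm.trans e.1) (hp.2.1.symm.trans e.2.1) (hp.2.2.symm.trans e.2.2)]
    rcases f with f | f
    · exact Or.inr (Or.inr (Or.inl f))
    · exact Or.inr (Or.inr (Or.inr (Or.inl f)))
  · refine absurd ?_ hd
    rw [LL2 (hp.1.symm.trans e.1) (hp.2.1.symm.trans e.2.1) (hp.2.2.symm.trans e.2.2)]
    rcases f with f | f
    · exact Or.inr (Or.inr (Or.inr (Or.inr (Or.inl f))))
    · exact Or.inr (Or.inr (Or.inr (Or.inr (Or.inr f))))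

theorem sol_weak {k : ℕ} [NeZero k] {x q : Fin 3 → ℤ} (hq : x - (KN k : ℤ) • q ∈ DD k q) :
      (¬ Dent (LL k (q - Pi.single 0 1)) (LL k (q - Pi.single 1 1))
      (LL k (q - Pi.single 2 1)) (x 0 % (KN k : ℤ)) (x 1 % (KN k : ℤ)) (x 2 % (KN k : ℤ)) ∧
      (x 0 / (KN k : ℤ) = q 0 ∧ x 1 / (KN k : ℤ) = q 1 ∧ x 2 / (KN k : ℤ) = q 2)) ∨
      ((x 0 / (KN k : ℤ) = q 0 + 1 ∧ x 1 / (KN k : ℤ) = q 1 ∧ x 2 / (KN k : ℤ) = q 2) ∧
        x 0 % (KN k : ℤ) ≤ 1 ∧ 4 ≤ x 1 % (KN k : ℤ) ∧ 4 ≤ x 2 % (KN k : ℤ)) ∨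
      ((x 0 / (KN k : ℤ) = q 0 ∧ x 1 / (KN k : ℤ) = q 1 + 1 ∧ x 2 / (KN k : ℤ) = q 2) ∧
        x 1 % (KN k : ℤ) ≤ 1 ∧ 4 ≤ x 0 % (KN k : ℤ) ∧ 4 ≤ x 2 % (KN k : ℤ)) ∨
      ((x 0 / (KN k : ℤ) = q 0 ∧ x 1 / (KN k : ℤ) = q 1 ∧ x 2 / (KN k : ℤ) = q 2 + 1) ∧
        x 2 % (KN k : ℤ) ≤ 1 ∧ 4 ≤ x 0 % (KN k : ℤ) ∧ 4 ≤ x 1 % (KN k : ℤ)) := by
  have hM := (ok_LL k q).1
  rcases sol hq with ⟨e, f⟩ | ⟨e, f⟩ | ⟨e, f⟩ | ⟨e, f⟩
  · exact Or.inl ⟨f, e⟩
  · refine Or.inr (Or.inl ⟨e, ?_⟩)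
    clear hq e
    generalize x 0 % (KN k : ℤ) = r0 at *
    generalize x 1 % (KN k : ℤ) = r1 at *
    generalize x 2 % (KN k : ℤ) = r2 at *
    omega
  · refine Or.inr (Or.inr (Or.inl ⟨e, ?_⟩))
    clear hq e
    generalize x 0 % (KN k : ℤ) = r0 at *
    generalize x 1 % (KN k : ℤ) = r1 at *
    generalize x 2 % (KN k : ℤ) = r2 at *
    omega
  · refine Or.inr (Or.inr (Or.inr ⟨e, ?_⟩))
    clear hq e
    generalize x 0 % (KN k : ℤ) = r0 at *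
    generalize x 1 % (KN k : ℤ) = r1 at *
    generalize x 2 % (KN k : ℤ) = r2 at *
    omega

theorem tiling_unique {k : ℕ} [NeZero k] {x p q : Fin 3 → ℤ}
    (h : x - (KN k : ℤ) • p ∈ DD k p) (h' : x - (KN k : ℤ) • q ∈ DD k q) : p = q := by
  rcases sol_weak h with ⟨f, e⟩ | ⟨e, f⟩ | ⟨e, f⟩ | ⟨e, f⟩
  · exact uniq_body f e h'
  all_goals
    rcases sol_weak h' with ⟨f', e'⟩ | ⟨e', f'⟩ | ⟨e', f'⟩ | ⟨e', f'⟩
    · exact (uniq_body f' e' h).symm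
  · exact vec_eq (by linarith [e.1, e'.1]) (by linarith [e.2.1, e'.2.1]) (by linarith [e.2.2, e'.2.2])
  · exfalso; linarith [f.1, f'.2.1]
  · exfalso; linarith [f.1, f'.2.1]
  · exfalso; linarith [f.1, f'.2.1]
  · exact vec_eq (by linarith [e.1, e'.1]) (by linarith [e.2.1, e'.2.1]) (by linarith [e.2.2, e'.2.2])
  · exfalso; linarith [f.1, f'.2.2]
  · exfalso; linarith [f.1, f'.2.2]
  · exfalso; linarith [f.1, f'.2.2]
  · exact vec_eq (by linarith [e.1, e'.1]) (by linarith [e.2.1, e'.2.1]) (by linarith [e.2.2, e'.2.2])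

theorem tiling_exists (k : ℕ) [NeZero k] (x : Fin 3 → ℤ) :
    ∃ p : Fin 3 → ℤ, x - (KN k : ℤ) • p ∈ DD k p := by
  set K : ℤ := (KN k : ℤ) with hK
  have hKpos : 0 < K := by
    have := ok_LL k x
    unfold Ok at this
    omega
  set p : Fin 3 → ℤ := fun i => x i / K with hp
  have hx : ∀ i, x i - K * (x i / K) = x i % K := fun i => by
    have := Int.emod_add_mul_ediv (x i) K
    omega
  have hr : ∀ i, 0 ≤ x i % K ∧ x i % K < K := fun i =>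
    ⟨Int.emod_nonneg _ hKpos.ne', Int.emod_lt_of_pos _ hKpos⟩
  have e : ∀ (q : Fin 3 → ℤ) i, (x - K • q) i = x i - K * q i := fun q i => by simp
  by_cases hd : Dent (LL k (p - Pi.single 0 1)) (LL k (p - Pi.single 1 1))
      (LL k (p - Pi.single 2 1)) (x 0 % K) (x 1 % K) (x 2 % K)
  · have h0 := hr 0
    have h1 := hr 1
    have h2 := hr 2
    have g0 := hx 0
    have g1 := hx 1
    have g2 := hx 2
    have t : ∀ (i j : Fin 3), (x - K • (p - Pi.single j 1 : Fin 3 → ℤ)) i =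
        x i % K + if i = j then K else 0 := by
      intro i j
      rw [e, Pi.sub_apply, Pi.single_apply, hp]
      simp only
      rw [← hx i]
      split_ifs <;> ring
    have hm : ∀ j : Fin 3, Bump K (LL k (p - Pi.single j 1)) (x 0 % K + if (0 : Fin 3) = j then K else 0)
        (x 1 % K + if (1 : Fin 3) = j then K else 0) (x 2 % K + if (2 : Fin 3) = j then K else 0) →
        x - K • (p - Pi.single j 1) ∈ DD k (p - Pi.single j 1) := by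
      intro j h
      rw [mem_DD, InD, t, t, t]
      exact Or.inr h
    rcases hd with hd | hd | hd | hd | hd | hd
    · exact ⟨p - Pi.single 0 1, hm 0 (by simp [Bump]; omega)⟩
    · exact ⟨p - Pi.single 0 1, hm 0 (by simp [Bump]; omega)⟩
    · exact ⟨p - Pi.single 1 1, hm 1 (by simp [Bump]; omega)⟩
    · exact ⟨p - Pi.single 1 1, hm 1 (by simp [Bump]; omega)⟩
    · exact ⟨p - Pi.single 2 1, hm 2 (by simp [Bump]; omega)⟩
    · exact ⟨p - Pi.single 2 1, hm 2 (by simp [Bump]; omega)⟩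
  · refine ⟨p, ?_⟩
    rw [mem_DD, InD, e, e, e, hp, hx, hx, hx]
    refine Or.inl ⟨?_, hd⟩
    have h0 := hr 0
    have h1 := hr 1
    have h2 := hr 2
    unfold Cube
    exact ⟨h0.1, h0.2, h1.1, h1.2, h2.1, h2.2⟩

end Vale.Agent.P043.H870
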