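import Vale.Agent.P043.H870.Jig2

/-! Block (3) of `P043.ConnectedTiles`: the labelled jigsaw. Part 3: connectedness and adjacency. -/

set_option linter.unusedSimpArgs false

namespace Vale.Agent.P043.H870

open H113

/-- explicit vectors -/
def V3 (a b c : ℤ) : Fin 3 → ℤ := ![a, b, c]

theorem V3_0 (a b c : ℤ) : V3 a b c 0 = a := rfl
theorem V3_1 (a b c : ℤ) : V3 a b c 1 = b := rfl
theorem V3_2 (a b c : ℤ) : V3 a b c 2 = c := rfl
theorem s00 : (Pi.single 0 1 : Fin 3 → ℤ) 0 = 1 := rfl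
theorem s01 : (Pi.single 0 1 : Fin 3 → ℤ) 1 = 0 := rfl
theorem s02 : (Pi.single 0 1 : Fin 3 → ℤ) 2 = 0 := rfl
theorem s10 : (Pi.single 1 1 : Fin 3 → ℤ) 0 = 0 := rfl
theorem s11 : (Pi.single 1 1 : Fin 3 → ℤ) 1 = 1 := rfl
theorem s12 : (Pi.single 1 1 : Fin 3 → ℤ) 2 = 0 := rfl
theorem s20 : (Pi.single 2 1 : Fin 3 → ℤ) 0 = 0 := rfl
theorem s21 : (Pi.single 2 1 : Fin 3 → ℤ) 1 = 0 := rfl
theorem s22 : (Pi.single 2 1 : Fin 3 → ℤ) 2 = 1 := rfl

section
variable {K L0 L1 L2 M a b c : ℤ}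

/-- body cells -/
def Body (K L0 L1 L2 a b c : ℤ) : Prop := Cube K a b c ∧ ¬ Dent L0 L1 L2 a b c

theorem raise0 (_h0 : Ok K L0) (h1 : Ok K L1) (h2 : Ok K L2) (h : Body K L0 L1 L2 a b c) {t : ℤ}
    (ha : a ≤ t) (ht : t ≤ 2 ∨ t ≤ a) : Body K L0 L1 L2 t b c := by
  rcases ht with ht | ht
  · refine ⟨?_, fun hd => h.2 ?_⟩
    · have := h.1
      unfold Cube Ok at *
      omega
    · have ha0 := h.1.1
      unfold Ok at h1 h2
      rcases hd with hd | hd | hd | hd | hd | hd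
      · exact Or.inl ⟨hd.1, hd.2.1, by omega⟩
      · exact Or.inr (Or.inl ⟨hd.1, hd.2.1, by omega⟩)
      · exfalso; omega
      · exfalso; omega
      · exfalso; omega
      · exfalso; omega
  · have : t = a := le_antisymm ht ha
    rwa [this]

theorem raise1 (h0 : Ok K L0) (h1 : Ok K L1) (h2 : Ok K L2) (h : Body K L0 L1 L2 a b c) {t : ℤ}
    (ha : b ≤ t) (ht : t ≤ 2 ∨ t ≤ b) : Body K L0 L1 L2 a t c := by
  rcases ht with ht | ht
  · refine ⟨?_, fun hd => h.2 ?_⟩
    · have := h.1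
      unfold Cube Ok at *
      omega
    · have ha0 := h.1.2.2.1
      unfold Ok at h0 h1 h2
      rcases hd with hd | hd | hd | hd | hd | hd
      · exfalso; omega
      · exfalso; omega
      · exact Or.inr (Or.inr (Or.inl ⟨hd.1, hd.2.1, by omega⟩))
      · exact Or.inr (Or.inr (Or.inr (Or.inl ⟨hd.1, hd.2.1, by omega⟩)))
      · exfalso; omega
      · exfalso; omega
  · have : t = b := le_antisymm ht ha
    rwa [this]

theorem raise2 (h0 : Ok K L0) (h1 : Ok K L1) (_h2 : Ok K L2) (h : Body K L0 L1 L2 a b c) {t : ℤ}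
    (ha : c ≤ t) (ht : t ≤ 2 ∨ t ≤ c) : Body K L0 L1 L2 a b t := by
  rcases ht with ht | ht
  · refine ⟨?_, fun hd => h.2 ?_⟩
    · have := h.1
      unfold Cube Ok at *
      omega
    · have ha0 := h.1.2.2.2.2.1
      unfold Ok at h0 h1
      rcases hd with hd | hd | hd | hd | hd | hd
      · exfalso; omega
      · exfalso; omega
      · exfalso; omega
      · exfalso; omega
      · exact Or.inr (Or.inr (Or.inr (Or.inr (Or.inl ⟨hd.1, hd.2.1, by omega⟩))))
      · exact Or.inr (Or.inr (Or.inr (Or.inr (Or.inr ⟨hd.1, hd.2.1, by omega⟩))))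
  · have : t = c := le_antisymm ht ha
    rwa [this]

theorem box_body (h0 : Ok K L0) (h1 : Ok K L1) (h2 : Ok K L2) (ha : 2 ≤ a ∧ a < K)
    (hb : 2 ≤ b ∧ b < K) (hc : 2 ≤ c ∧ c < K) : Body K L0 L1 L2 a b c := by
  refine ⟨?_, fun hd => ?_⟩
  · unfold Cube
    omega
  · have := hd.shape h0 h1 h2
    omega

end

variable {k : ℕ} [NeZero k] {p : Fin 3 → ℤ}

/-- body cells of the decorated cube -/
def BodyD (k : ℕ) [NeZero k] (p x : Fin 3 → ℤ) : Prop :=
  Body (KN k : ℤ) (LL k (p - Pi.single 0 1)) (LL k (p - Pi.single 1 1)) (LL k (p - Pi.single 2 1))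
    (x 0) (x 1) (x 2)

theorem BodyD.mem {x : Fin 3 → ℤ} (h : BodyD k p x) : x ∈ DD k p := by
  rw [mem_DD]
  exact Or.inl h

theorem step_up (x : Fin 3 → ℤ) (h : BodyD k p x) (i : Fin 3) :
    BodyD k p (Function.update x i (max (x i) 2)) ∧
      Conn (DD k p : Set (Fin 3 → ℤ)) x (Function.update x i (max (x i) 2)) := by
  have h0 := ok_LL k (p - Pi.single 0 1)
  have h1 := ok_LL k (p - Pi.single 1 1)
  have h2 := ok_LL k (p - Pi.single 2 1)
  have key : ∀ t, x i ≤ t → (t ≤ 2 ∨ t ≤ x i) → BodyD k p (Function.update x i t) := by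
    intro t ht ht'
    fin_cases i
    · have := raise0 h0 h1 h2 h ht ht'
      simpa [BodyD] using this
    · have := raise1 h0 h1 h2 h ht ht'
      simpa [BodyD] using this
    · have := raise2 h0 h1 h2 h ht ht'
      simpa [BodyD] using this
  refine ⟨key _ (le_max_left _ _) ?_, Conn.seg i (fun j hj => (Function.update_of_ne hj _ _).symm) ?_⟩
  · rcases le_total (x i) 2 with hh | hh
    · exact Or.inl (max_le hh le_rfl)
    · exact Or.inr (max_le le_rfl hh)
  · intro t ht1 ht2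
    rw [Function.update_self] at ht1 ht2
    rw [min_eq_left (le_max_left _ _)] at ht1
    rw [max_eq_right (le_max_left _ _)] at ht2
    refine (key t ht1 ?_).mem
    rcases le_total (x i) 2 with hh | hh
    · rw [max_eq_right hh] at ht2
      exact Or.inl ht2
    · rw [max_eq_left hh] at ht2
      exact Or.inr ht2

theorem step_down (x : Fin 3 → ℤ) (h : ∀ i, 2 ≤ x i ∧ x i < KN k) (i : Fin 3) :
    (∀ j, 2 ≤ Function.update x i 2 j ∧ Function.update x i 2 j < KN k) ∧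
      Conn (DD k p : Set (Fin 3 → ℤ)) x (Function.update x i 2) := by
  have h0 := ok_LL k (p - Pi.single 0 1)
  have h1 := ok_LL k (p - Pi.single 1 1)
  have h2 := ok_LL k (p - Pi.single 2 1)
  have key : ∀ t, 2 ≤ t → t < (KN k : ℤ) → ∀ j, 2 ≤ Function.update x i t j ∧
      Function.update x i t j < KN k := by
    intro t ht ht' j
    by_cases hj : j = i
    · subst hj
      rw [Function.update_self]
      exact ⟨ht, ht'⟩
    · rw [Function.update_of_ne hj]
      exact h j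
  refine ⟨key 2 le_rfl ((h i).1.trans_lt (h i).2),
    Conn.seg i (fun j hj => (Function.update_of_ne hj _ _).symm) ?_⟩
  intro t ht1 ht2
  rw [Function.update_self] at ht1 ht2
  rw [min_eq_right (h i).1] at ht1
  rw [max_eq_left (h i).1] at ht2
  have hk := key t ht1 (ht2.trans_lt (h i).2)
  exact BodyD.mem (box_body h0 h1 h2 (hk 0) (hk 1) (hk 2))

theorem conn_body (x : Fin 3 → ℤ) (h : BodyD k p x) :
    Conn (DD k p : Set (Fin 3 → ℤ)) x (fun _ => 2) := by
  obtain ⟨a1, a2⟩ := step_up x h 0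
  obtain ⟨b1, b2⟩ := step_up _ a1 1
  obtain ⟨c1, c2⟩ := step_up _ b1 2
  refine a2.trans (b2.trans (c2.trans ?_))
  set y := Function.update (Function.update (Function.update x 0 (max (x 0) 2)) 1
    (max (Function.update x 0 (max (x 0) 2) 1) 2)) 2
    (max (Function.update (Function.update x 0 (max (x 0) 2)) 1
      (max (Function.update x 0 (max (x 0) 2) 1) 2) 2) 2) with hy
  have e0 : y 0 = max (x 0) 2 := by simp [hy]
  have e1 : y 1 = max (x 1) 2 := by simp [hy]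
  have e2 : y 2 = max (x 2) 2 := by simp [hy]
  have hc := h.1
  have h8 := ok_LL k p
  unfold Cube at hc
  unfold Ok at h8
  have hbox : ∀ i, 2 ≤ y i ∧ y i < KN k := by
    intro i
    fin_cases i
    · simp only [Fin.zero_eta, e0]; omega
    · simp only [Fin.mk_one, e1]; omega
    · simp only [Fin.reduceFinMk, e2]; omega
  obtain ⟨u1, u2⟩ := step_down (p := p) y hbox 0
  obtain ⟨v1, v2⟩ := step_down (p := p) _ u1 1
  obtain ⟨w1, w2⟩ := step_down (p := p) _ v1 2
  have hfin : Function.update (Function.update (Function.update y 0 2) 1 2) 2 2 = fun _ => (2 : ℤ) := by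
    funext i
    fin_cases i <;> simp
  rw [hfin] at w2
  exact u2.trans (v2.trans w2)

theorem bump_down {x : Fin 3 → ℤ} (i : Fin 3) {y : Fin 3 → ℤ} (hx : x ∈ DD k p)
    (hy : BodyD k p y) (h : x = y + Pi.single i 1) :
    Conn (DD k p : Set (Fin 3 → ℤ)) x (fun _ => 2) :=
  (Conn.of_adj hx hy.mem ⟨i, Or.inr h⟩).trans (conn_body y hy)

theorem conn_DD : IsConn (DD k p : Set (Fin 3 → ℤ)) := by
  have h0 := ok_LL k (p - Pi.single 0 1)
  have h1 := ok_LL k (p - Pi.single 1 1)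
  have h2 := ok_LL k (p - Pi.single 2 1)
  have hM := ok_LL k p
  have hK : 16 < (KN k : ℤ) := by unfold Ok at hM; omega
  have ho : (fun _ => 2 : Fin 3 → ℤ) ∈ (DD k p : Set (Fin 3 → ℤ)) :=
    BodyD.mem (box_body h0 h1 h2 (a := 2) (b := 2) (c := 2) (by omega) (by omega) (by omega))
  have hi : ∀ y : Fin 3 → ℤ, (∀ i, 2 ≤ y i ∧ y i < KN k) → BodyD k p y := fun y hy =>
    box_body h0 h1 h2 (hy 0) (hy 1) (hy 2)
  refine IsConn.of_base ho fun x hx => Conn.symm ?_
  have hx' := mem_DD.1 hx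
  -- one step down in direction `i`
  have down : ∀ (x : Fin 3 → ℤ) (i : Fin 3), x ∈ DD k p → x i = KN k →
      (∀ j, j ≠ i → 2 ≤ x j ∧ x j < KN k) → Conn (DD k p : Set (Fin 3 → ℤ)) x (fun _ => 2) := by
    intro x i hx hxi hxj
    refine bump_down (y := x - Pi.single i 1) i hx (hi _ fun j => ?_) (by abel)
    by_cases hj : j = i
    · subst hj
      simp only [Pi.sub_apply, Pi.single_eq_same]
      omega
    · simp only [Pi.sub_apply, Pi.single_eq_of_ne hj, sub_zero]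
      exact hxj j hj
  -- two steps
  have down2 : ∀ (x : Fin 3 → ℤ) (i : Fin 3), x ∈ DD k p → x i = KN k + 1 →
      x - Pi.single i 1 ∈ DD k p →
      (∀ j, j ≠ i → 2 ≤ x j ∧ x j < KN k) → Conn (DD k p : Set (Fin 3 → ℤ)) x (fun _ => 2) := by
    intro x i hx hxi hx2 hxj
    refine (Conn.of_adj hx hx2 ⟨i, Or.inr (by abel)⟩).trans (down _ i hx2 ?_ ?_)
    · simp [hxi]
    · intro j hj
      simp only [Pi.sub_apply, Pi.single_eq_of_ne hj, sub_zero]
      exact hxj j hj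
  unfold Ok at hM
  rcases hx' with hb | ⟨hb, hc, ha | ha⟩ | ⟨hb, hc, ha⟩ | ⟨ha, hc, hb | hb⟩ | ⟨ha, hc, hb⟩ |
      ⟨ha, hb, hc | hc⟩ | ⟨ha, hb, hc⟩
  · exact conn_body x hb
  · exact down x 0 hx ha (by intro j hj; fin_cases j <;> simp at hj ⊢ <;> omega)
  · refine down2 x 0 hx ha ?_ (by intro j hj; fin_cases j <;> simp at hj ⊢ <;> omega)
    rw [mem_DD]
    refine Or.inr (Or.inl ⟨?_, ?_, Or.inl ?_⟩)
    · simp [hb]
    · simp [hc]
    · simp [ha]
  · exact down x 0 hx ha (by intro j hj; fin_cases j <;> simp at hj ⊢ <;> omega)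
  · exact down x 1 hx hb (by intro j hj; fin_cases j <;> simp at hj ⊢ <;> omega)
  · refine down2 x 1 hx hb ?_ (by intro j hj; fin_cases j <;> simp at hj ⊢ <;> omega)
    rw [mem_DD]
    refine Or.inr (Or.inr (Or.inr (Or.inl ⟨?_, ?_, Or.inl ?_⟩)))
    · simp [ha]
    · simp [hc]
    · simp [hb]
  · exact down x 1 hx hb (by intro j hj; fin_cases j <;> simp at hj ⊢ <;> omega)
  · exact down x 2 hx hc (by intro j hj; fin_cases j <;> simp at hj ⊢ <;> omega)
  · refine down2 x 2 hx hc ?_ (by intro j hj; fin_cases j <;> simp at hj ⊢ <;> omega)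
    rw [mem_DD]
    refine Or.inr (Or.inr (Or.inr (Or.inr (Or.inr (Or.inl ⟨?_, ?_, Or.inl ?_⟩)))))
    · simp [ha]
    · simp [hb]
    · simp [hc]
  · exact down x 2 hx hc (by intro j hj; fin_cases j <;> simp at hj ⊢ <;> omega)

/-! ### adjacency -/

theorem adj_DD (p : Fin 3 → ℤ) (b : Fin 3) : ∃ x ∈ DD k p, ∃ y ∈ DD k (p + Pi.single b 1),
    Adj (x + (KN k : ℤ) • p) (y + (KN k : ℤ) • (p + Pi.single b 1)) := by
  have hM := ok_LL k p
  have hK : 16 < (KN k : ℤ) := by unfold Ok at hM; omega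
  have g0 : ∀ q, Ok (KN k : ℤ) (LL k q) := ok_LL k
  fin_cases b
  · refine ⟨V3 (KN k) 4 4, ?_, V3 0 5 4, ?_, 1, Or.inl ?_⟩
    · rw [mem_DD]
      exact Or.inr (Or.inl ⟨rfl, rfl, Or.inl rfl⟩)
    · rw [mem_DD]
      refine In.body ?_ fun hd => ?_
      · rw [V3_0, V3_1, V3_2]; unfold Cube; omega
      · have := hd.shape (g0 _) (g0 _) (g0 _)
        rw [V3_0, V3_1, V3_2] at this
        omega
    · refine vec_eq ?_ ?_ ?_ <;>
        simp only [Fin.zero_eta, Fin.mk_one, Fin.reduceFinMk, Pi.add_apply, Pi.smul_apply,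
          smul_eq_mul, V3_0, V3_1, V3_2, s00, s01, s02, s10, s11, s12, s20, s21, s22] <;> ring
  · refine ⟨V3 4 (KN k) 4, ?_, V3 5 0 4, ?_, 0, Or.inl ?_⟩
    · rw [mem_DD]
      exact Or.inr (Or.inr (Or.inr (Or.inl ⟨rfl, rfl, Or.inl rfl⟩)))
    · rw [mem_DD]
      refine In.body ?_ fun hd => ?_
      · rw [V3_0, V3_1, V3_2]; unfold Cube; omega
      · have := hd.shape (g0 _) (g0 _) (g0 _)
        rw [V3_0, V3_1, V3_2] at this
        omega
    · refine vec_eq ?_ ?_ ?_ <;>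
        simp only [Fin.zero_eta, Fin.mk_one, Fin.reduceFinMk, Pi.add_apply, Pi.smul_apply,
          smul_eq_mul, V3_0, V3_1, V3_2, s00, s01, s02, s10, s11, s12, s20, s21, s22] <;> ring
  · refine ⟨V3 4 4 (KN k), ?_, V3 5 4 0, ?_, 0, Or.inl ?_⟩
    · rw [mem_DD]
      exact Or.inr (Or.inr (Or.inr (Or.inr (Or.inr (Or.inl ⟨rfl, rfl, Or.inl rfl⟩)))))
    · rw [mem_DD]
      refine In.body ?_ fun hd => ?_
      · rw [V3_0, V3_1, V3_2]; unfold Cube; omega
      · have := hd.shape (g0 _) (g0 _) (g0 _)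
        rw [V3_0, V3_1, V3_2] at this
        omega
    · refine vec_eq ?_ ?_ ?_ <;>
        simp only [Fin.zero_eta, Fin.mk_one, Fin.reduceFinMk, Pi.add_apply, Pi.smul_apply,
          smul_eq_mul, V3_0, V3_1, V3_2, s00, s01, s02, s10, s11, s12, s20, s21, s22] <;> ring

end Vale.Agent.P043.H870
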