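import Vale.Agent.P043.H870.Jig3

/-! Block (3) of `P043.ConnectedTiles`: the labelled jigsaw. Part 4: rigidity. -/

namespace Vale.Agent.P043.H870

open H113

variable {k : ℕ} [NeZero k] {ι : Type} {pos typ : ι → (Fin 3 → ℤ)}

/-- two different pieces are at distance at least `K` -/
theorem far_of_ne (h : ∀ x : Fin 3 → ℤ, ∃! i : ι, x - pos i ∈ DD k (typ i)) {i i' : ι}
    (h0 : -(KN k : ℤ) < pos i' 0 - pos i 0 ∧ pos i' 0 - pos i 0 < KN k)
    (h1 : -(KN k : ℤ) < pos i' 1 - pos i 1 ∧ pos i' 1 - pos i 1 < KN k)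
    (h2 : -(KN k : ℤ) < pos i' 2 - pos i 2 ∧ pos i' 2 - pos i 2 < KN k) : i = i' := by
  obtain ⟨a, b, c, e1, e2⟩ := overlap (M := LL k (typ i)) (M' := LL k (typ i'))
    (ok_LL k (typ i - Pi.single 0 1))
    (ok_LL k (typ i - Pi.single 1 1)) (ok_LL k (typ i - Pi.single 2 1))
    (ok_LL k (typ i' - Pi.single 0 1)) (ok_LL k (typ i' - Pi.single 1 1))
    (ok_LL k (typ i' - Pi.single 2 1)) h0 h1 h2
  refine (h (pos i + V3 a b c)).unique ?_ ?_
  · rw [mem_DD, InD]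
    simp only [Pi.sub_apply, Pi.add_apply, V3_0, V3_1, V3_2, add_sub_cancel_left]
    exact e1
  · rw [mem_DD, InD]
    have t0 : (pos i + V3 a b c - pos i') 0 = a - (pos i' 0 - pos i 0) := by
      simp only [Pi.sub_apply, Pi.add_apply, V3_0]; ring
    have t1 : (pos i + V3 a b c - pos i') 1 = b - (pos i' 1 - pos i 1) := by
      simp only [Pi.sub_apply, Pi.add_apply, V3_1]; ring
    have t2 : (pos i + V3 a b c - pos i') 2 = c - (pos i' 2 - pos i 2) := by
      simp only [Pi.sub_apply, Pi.add_apply, V3_2]; ring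
    rw [t0, t1, t2]
    exact e2

theorem in_iff (i : ι) (x : Fin 3 → ℤ) : x - pos i ∈ DD k (typ i) ↔
    InD k (typ i) (x 0 - pos i 0) (x 1 - pos i 1) (x 2 - pos i 2) := mem_DD

/-- one of the two pieces does not contain a cell of the other one -/
theorem not_in (h : ∀ x : Fin 3 → ℤ, ∃! i : ι, x - pos i ∈ DD k (typ i)) {i i' : ι} (hne : i ≠ i')
    {a b c : ℤ} (h1 : InD k (typ i) (a - pos i 0) (b - pos i 1) (c - pos i 2)) :
    ¬ InD k (typ i') (a - pos i' 0) (b - pos i' 1) (c - pos i' 2) := fun h2 =>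
  hne ((h (V3 a b c)).unique ((in_iff i _).2 h1) ((in_iff i' _).2 h2))

theorem body_mem {p : Fin 3 → ℤ} {a b c : ℤ} (hc : Cube (KN k) a b c)
    (hs : ¬ ((a ≤ 1 ∧ b = c ∧ 4 ∣ b) ∨ (b ≤ 1 ∧ a = c ∧ 4 ∣ a) ∨ (c ≤ 1 ∧ a = b ∧ 4 ∣ a))) :
    InD k p a b c := by
  refine In.body hc fun hd => hs ?_
  have := hd.shape (ok_LL k _) (ok_LL k _) (ok_LL k _)
  omega

theorem down0 (h : ∀ x : Fin 3 → ℤ, ∃! i : ι, x - pos i ∈ DD k (typ i)) (i : ι) :
    ∃ i', pos i' 0 = pos i 0 - KN k ∧ pos i' 1 = pos i 1 ∧ pos i' 2 = pos i 2 ∧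
      ∀ l, (k : ℤ) ∣ typ i' l - (typ i - Pi.single 0 1 : Fin 3 → ℤ) l := by
  have hM0 := ok_LL k (typ i)
  have hK : 16 < (KN k : ℤ) := by unfold Ok at hM0; omega
  obtain ⟨i', hi', -⟩ := h (V3 (pos i 0 + 1) (pos i 1 + 4) (pos i 2 + 4))
  have hi'' := (in_iff i' _).1 hi'
  rw [V3_0, V3_1, V3_2] at hi''
  have hne : i ≠ i' := by
    rintro rfl
    have e1 : pos i 0 + 1 - pos i 0 = 1 := by ring
    have e2 : pos i 1 + 4 - pos i 1 = 4 := by ring
    have e3 : pos i 2 + 4 - pos i 2 = 4 := by ring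
    rw [e1, e2, e3] at hi''
    rcases hi'' with ⟨-, hd⟩ | hb
    · exact hd (Or.inl ⟨rfl, rfl, Or.inr rfl⟩)
    · unfold Bump at hb
      unfold Ok at hM0
      omega
  -- the cells around
  have nb : ∀ a b c : ℤ, Cube (KN k) a b c → ¬ ((a ≤ 1 ∧ b = c ∧ 4 ∣ b) ∨
      (b ≤ 1 ∧ a = c ∧ 4 ∣ a) ∨ (c ≤ 1 ∧ a = b ∧ 4 ∣ a)) →
      ¬ InD k (typ i') (pos i 0 + a - pos i' 0) (pos i 1 + b - pos i' 1)
        (pos i 2 + c - pos i' 2) := by
    intro a b c hc hs
    refine not_in h hne ?_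
    have e1 : pos i 0 + a - pos i 0 = a := by ring
    have e2 : pos i 1 + b - pos i 1 = b := by ring
    have e3 : pos i 2 + c - pos i 2 = c := by ring
    rw [e1, e2, e3]
    exact body_mem hc hs
  have n1 := nb 2 4 4 (by unfold Cube; omega) (by omega)
  have n2 := nb 1 5 4 (by unfold Cube; omega) (by omega)
  have n3 := nb 1 3 4 (by unfold Cube; omega) (by omega)
  have n4 := nb 1 4 5 (by unfold Cube; omega) (by omega)
  have n5 := nb 1 4 3 (by unfold Cube; omega) (by omega)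
  have hM := ok_LL k (typ i')
  have ht := tip0 (ok_LL k (typ i' - Pi.single 0 1)) (ok_LL k (typ i' - Pi.single 1 1))
    (ok_LL k (typ i' - Pi.single 2 1)) hM hi''
    (by rwa [show pos i 0 + 1 - pos i' 0 + 1 = pos i 0 + 2 - pos i' 0 by ring])
    (by rwa [show pos i 1 + 4 - pos i' 1 + 1 = pos i 1 + 5 - pos i' 1 by ring])
    (by rwa [show pos i 1 + 4 - pos i' 1 - 1 = pos i 1 + 3 - pos i' 1 by ring])
    (by rwa [show pos i 2 + 4 - pos i' 2 + 1 = pos i 2 + 5 - pos i' 2 by ring])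
    (by rwa [show pos i 2 + 4 - pos i' 2 - 1 = pos i 2 + 3 - pos i' 2 by ring])
  rcases ht with ⟨t0, t1, t2⟩ | ⟨t0, t1, t2⟩
  · refine ⟨i', by omega, by omega, by omega, ?_⟩
    rw [← LL_eq]
    by_contra hl
    unfold Ok at hM
    -- the label bump of `i'` is a body cell of `i`
    have g1 : InD k (typ i') (pos i 0 + 0 - pos i' 0) (pos i 1 + LL k (typ i') - pos i' 1)
        (pos i 2 + LL k (typ i') - pos i' 2) :=
      Or.inr (Or.inr (Or.inl ⟨by omega, by omega, by omega⟩))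
    refine not_in h hne ?_ g1
    have e1 : pos i 0 + 0 - pos i 0 = 0 := by ring
    have e2 : pos i 1 + LL k (typ i') - pos i 1 = LL k (typ i') := by ring
    have e3 : pos i 2 + LL k (typ i') - pos i 2 = LL k (typ i') := by ring
    rw [e1, e2, e3]
    refine In.body (by unfold Cube; omega) fun hd => ?_
    have q1 := ok_LL k (typ i - Pi.single 1 1)
    have q2 := ok_LL k (typ i - Pi.single 2 1)
    unfold Ok at q1 q2
    rcases hd with hd | hd | hd | hd | hd | hd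
    · omega
    · exact hl hd.1
    · omega
    · omega
    · omega
    · omega
  · exfalso
    unfold Ok at hM
    exact hne (far_of_ne h (by omega) (by omega) (by omega))

theorem down1 (h : ∀ x : Fin 3 → ℤ, ∃! i : ι, x - pos i ∈ DD k (typ i)) (i : ι) :
    ∃ i', pos i' 0 = pos i 0 ∧ pos i' 1 = pos i 1 - KN k ∧ pos i' 2 = pos i 2 ∧
      ∀ l, (k : ℤ) ∣ typ i' l - (typ i - Pi.single 1 1 : Fin 3 → ℤ) l := by
  have hM0 := ok_LL k (typ i)
  have hK : 16 < (KN k : ℤ) := by unfold Ok at hM0; omega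
  obtain ⟨i', hi', -⟩ := h (V3 (pos i 0 + 4) (pos i 1 + 1) (pos i 2 + 4))
  have hi'' := (in_iff i' _).1 hi'
  rw [V3_0, V3_1, V3_2] at hi''
  have hne : i ≠ i' := by
    rintro rfl
    have e1 : pos i 0 + 4 - pos i 0 = 4 := by ring
    have e2 : pos i 1 + 1 - pos i 1 = 1 := by ring
    have e3 : pos i 2 + 4 - pos i 2 = 4 := by ring
    rw [e1, e2, e3] at hi''
    rcases hi'' with ⟨-, hd⟩ | hb
    · exact hd (Or.inr (Or.inr (Or.inl ⟨rfl, rfl, Or.inr rfl⟩)))
    · unfold Bump at hb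
      unfold Ok at hM0
      omega
  -- the cells around
  have nb : ∀ a b c : ℤ, Cube (KN k) a b c → ¬ ((a ≤ 1 ∧ b = c ∧ 4 ∣ b) ∨
      (b ≤ 1 ∧ a = c ∧ 4 ∣ a) ∨ (c ≤ 1 ∧ a = b ∧ 4 ∣ a)) →
      ¬ InD k (typ i') (pos i 0 + a - pos i' 0) (pos i 1 + b - pos i' 1)
        (pos i 2 + c - pos i' 2) := by
    intro a b c hc hs
    refine not_in h hne ?_
    have e1 : pos i 0 + a - pos i 0 = a := by ring
    have e2 : pos i 1 + b - pos i 1 = b := by ring
    have e3 : pos i 2 + c - pos i 2 = c := by ring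
    rw [e1, e2, e3]
    exact body_mem hc hs
  have n1 := nb 4 2 4 (by unfold Cube; omega) (by omega)
  have n2 := nb 5 1 4 (by unfold Cube; omega) (by omega)
  have n3 := nb 3 1 4 (by unfold Cube; omega) (by omega)
  have n4 := nb 4 1 5 (by unfold Cube; omega) (by omega)
  have n5 := nb 4 1 3 (by unfold Cube; omega) (by omega)
  have hM := ok_LL k (typ i')
  have ht := tip1 (ok_LL k (typ i' - Pi.single 0 1)) (ok_LL k (typ i' - Pi.single 1 1))
    (ok_LL k (typ i' - Pi.single 2 1)) hM hi''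
    (by rwa [show pos i 1 + 1 - pos i' 1 + 1 = pos i 1 + 2 - pos i' 1 by ring])
    (by rwa [show pos i 0 + 4 - pos i' 0 + 1 = pos i 0 + 5 - pos i' 0 by ring])
    (by rwa [show pos i 0 + 4 - pos i' 0 - 1 = pos i 0 + 3 - pos i' 0 by ring])
    (by rwa [show pos i 2 + 4 - pos i' 2 + 1 = pos i 2 + 5 - pos i' 2 by ring])
    (by rwa [show pos i 2 + 4 - pos i' 2 - 1 = pos i 2 + 3 - pos i' 2 by ring])
  rcases ht with ⟨t0, t1, t2⟩ | ⟨t0, t1, t2⟩
  · refine ⟨i', by omega, by omega, by omega, ?_⟩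
    rw [← LL_eq]
    by_contra hl
    unfold Ok at hM
    have g1 : InD k (typ i') (pos i 0 + LL k (typ i') - pos i' 0) (pos i 1 + 0 - pos i' 1)
        (pos i 2 + LL k (typ i') - pos i' 2) :=
      Or.inr (Or.inr (Or.inr (Or.inr (Or.inl ⟨by omega, by omega, by omega⟩))))
    refine not_in h hne ?_ g1
    have e1 : pos i 0 + LL k (typ i') - pos i 0 = LL k (typ i') := by ring
    have e2 : pos i 1 + 0 - pos i 1 = 0 := by ring
    have e3 : pos i 2 + LL k (typ i') - pos i 2 = LL k (typ i') := by ring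
    rw [e1, e2, e3]
    refine In.body (by unfold Cube; omega) fun hd => ?_
    have q1 := ok_LL k (typ i - Pi.single 0 1)
    have q2 := ok_LL k (typ i - Pi.single 2 1)
    unfold Ok at q1 q2
    rcases hd with hd | hd | hd | hd | hd | hd
    · omega
    · omega
    · omega
    · exact hl hd.1
    · omega
    · omega
  · exfalso
    unfold Ok at hM
    exact hne (far_of_ne h (by omega) (by omega) (by omega))

theorem down2 (h : ∀ x : Fin 3 → ℤ, ∃! i : ι, x - pos i ∈ DD k (typ i)) (i : ι) :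
    ∃ i', pos i' 0 = pos i 0 ∧ pos i' 1 = pos i 1 ∧ pos i' 2 = pos i 2 - KN k ∧
      ∀ l, (k : ℤ) ∣ typ i' l - (typ i - Pi.single 2 1 : Fin 3 → ℤ) l := by
  have hM0 := ok_LL k (typ i)
  have hK : 16 < (KN k : ℤ) := by unfold Ok at hM0; omega
  obtain ⟨i', hi', -⟩ := h (V3 (pos i 0 + 4) (pos i 1 + 4) (pos i 2 + 1))
  have hi'' := (in_iff i' _).1 hi'
  rw [V3_0, V3_1, V3_2] at hi''
  have hne : i ≠ i' := by
    rintro rfl
    have e1 : pos i 0 + 4 - pos i 0 = 4 := by ring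
    have e2 : pos i 1 + 4 - pos i 1 = 4 := by ring
    have e3 : pos i 2 + 1 - pos i 2 = 1 := by ring
    rw [e1, e2, e3] at hi''
    rcases hi'' with ⟨-, hd⟩ | hb
    · exact hd (Or.inr (Or.inr (Or.inr (Or.inr (Or.inl ⟨rfl, rfl, Or.inr rfl⟩)))))
    · unfold Bump at hb
      unfold Ok at hM0
      omega
  -- the cells around
  have nb : ∀ a b c : ℤ, Cube (KN k) a b c → ¬ ((a ≤ 1 ∧ b = c ∧ 4 ∣ b) ∨
      (b ≤ 1 ∧ a = c ∧ 4 ∣ a) ∨ (c ≤ 1 ∧ a = b ∧ 4 ∣ a)) →
      ¬ InD k (typ i') (pos i 0 + a - pos i' 0) (pos i 1 + b - pos i' 1)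
        (pos i 2 + c - pos i' 2) := by
    intro a b c hc hs
    refine not_in h hne ?_
    have e1 : pos i 0 + a - pos i 0 = a := by ring
    have e2 : pos i 1 + b - pos i 1 = b := by ring
    have e3 : pos i 2 + c - pos i 2 = c := by ring
    rw [e1, e2, e3]
    exact body_mem hc hs
  have n1 := nb 4 4 2 (by unfold Cube; omega) (by omega)
  have n2 := nb 5 4 1 (by unfold Cube; omega) (by omega)
  have n3 := nb 3 4 1 (by unfold Cube; omega) (by omega)
  have n4 := nb 4 5 1 (by unfold Cube; omega) (by omega)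
  have n5 := nb 4 3 1 (by unfold Cube; omega) (by omega)
  have hM := ok_LL k (typ i')
  have ht := tip2 (ok_LL k (typ i' - Pi.single 0 1)) (ok_LL k (typ i' - Pi.single 1 1))
    (ok_LL k (typ i' - Pi.single 2 1)) hM hi''
    (by rwa [show pos i 2 + 1 - pos i' 2 + 1 = pos i 2 + 2 - pos i' 2 by ring])
    (by rwa [show pos i 0 + 4 - pos i' 0 + 1 = pos i 0 + 5 - pos i' 0 by ring])
    (by rwa [show pos i 0 + 4 - pos i' 0 - 1 = pos i 0 + 3 - pos i' 0 by ring])
    (by rwa [show pos i 1 + 4 - pos i' 1 + 1 = pos i 1 + 5 - pos i' 1 by ring])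
    (by rwa [show pos i 1 + 4 - pos i' 1 - 1 = pos i 1 + 3 - pos i' 1 by ring])
  rcases ht with ⟨t0, t1, t2⟩ | ⟨t0, t1, t2⟩
  · refine ⟨i', by omega, by omega, by omega, ?_⟩
    rw [← LL_eq]
    by_contra hl
    unfold Ok at hM
    have g1 : InD k (typ i') (pos i 0 + LL k (typ i') - pos i' 0)
        (pos i 1 + LL k (typ i') - pos i' 1) (pos i 2 + 0 - pos i' 2) :=
      Or.inr (Or.inr (Or.inr (Or.inr (Or.inr (Or.inr ⟨by omega, by omega, by omega⟩)))))
    refine not_in h hne ?_ g1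
    have e1 : pos i 0 + LL k (typ i') - pos i 0 = LL k (typ i') := by ring
    have e2 : pos i 1 + LL k (typ i') - pos i 1 = LL k (typ i') := by ring
    have e3 : pos i 2 + 0 - pos i 2 = 0 := by ring
    rw [e1, e2, e3]
    refine In.body (by unfold Cube; omega) fun hd => ?_
    have q1 := ok_LL k (typ i - Pi.single 0 1)
    have q2 := ok_LL k (typ i - Pi.single 1 1)
    unfold Ok at q1 q2
    rcases hd with hd | hd | hd | hd | hd | hd
    · omega
    · omega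
    · omega
    · omega
    · omega
    · exact hl hd.1
  · exfalso
    unfold Ok at hM
    exact hne (far_of_ne h (by omega) (by omega) (by omega))

/-- one step down -/
theorem down (h : ∀ x : Fin 3 → ℤ, ∃! i : ι, x - pos i ∈ DD k (typ i)) (j : Fin 3) (i : ι) :
    ∃ i', pos i' = pos i - (KN k : ℤ) • Pi.single j 1 ∧
      ∀ l, (k : ℤ) ∣ typ i' l - (typ i l - (Pi.single j 1 : Fin 3 → ℤ) l) := by
  fin_cases j
  · obtain ⟨i', h0, h1, h2, h3⟩ := down0 h i
    refine ⟨i', vec_eq ?_ ?_ ?_, h3⟩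
    · simp [h0]
    · simp [h1]
    · simp [h2]
  · obtain ⟨i', h0, h1, h2, h3⟩ := down1 h i
    refine ⟨i', vec_eq ?_ ?_ ?_, h3⟩
    · simp [h0]
    · simp [h1]
    · simp [h2]
  · obtain ⟨i', h0, h1, h2, h3⟩ := down2 h i
    refine ⟨i', vec_eq ?_ ?_ ?_, h3⟩
    · simp [h0]
    · simp [h1]
    · simp [h2]

/-- `n` steps down in direction `j` -/
theorem down_n (h : ∀ x : Fin 3 → ℤ, ∃! i : ι, x - pos i ∈ DD k (typ i)) (j : Fin 3) (n : ℕ)
    (i : ι) : ∃ i', pos i' = pos i - (KN k : ℤ) • ((n : ℤ) • (Pi.single j 1 : Fin 3 → ℤ)) ∧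
      ∀ l, (k : ℤ) ∣ typ i' l - (typ i l - (n : ℤ) * (Pi.single j 1 : Fin 3 → ℤ) l) := by
  induction n with
  | zero => exact ⟨i, by simp, fun l => by simp⟩
  | succ n ih =>
    obtain ⟨i₁, h1, h2⟩ := ih
    obtain ⟨i₂, h3, h4⟩ := down h j i₁
    refine ⟨i₂, ?_, fun l => ?_⟩
    · rw [h3, h1]
      push_cast
      module
    · have e : typ i₂ l - (typ i l - ((n + 1 : ℕ) : ℤ) * (Pi.single j 1 : Fin 3 → ℤ) l) =
          (typ i₂ l - (typ i₁ l - (Pi.single j 1 : Fin 3 → ℤ) l)) +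
          (typ i₁ l - (typ i l - (n : ℤ) * (Pi.single j 1 : Fin 3 → ℤ) l)) := by
        push_cast
        ring
      rw [e]
      exact dvd_add (h4 l) (h2 l)

/-- steps down in all directions -/
theorem down_all (h : ∀ x : Fin 3 → ℤ, ∃! i : ι, x - pos i ∈ DD k (typ i)) (a : Fin 3 → ℕ)
    (i : ι) : ∃ i', (∀ l, pos i' l = pos i l - KN k * a l) ∧
      ∀ l, (k : ℤ) ∣ typ i' l - (typ i l - a l) := by
  obtain ⟨i₁, e1, f1⟩ := down_n h 0 (a 0) i
  obtain ⟨i₂, e2, f2⟩ := down_n h 1 (a 1) i₁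
  obtain ⟨i₃, e3, f3⟩ := down_n h 2 (a 2) i₂
  have hs : ∀ l : Fin 3, (a 0 : ℤ) * (Pi.single 0 1 : Fin 3 → ℤ) l +
      (a 1 : ℤ) * (Pi.single 1 1 : Fin 3 → ℤ) l + (a 2 : ℤ) * (Pi.single 2 1 : Fin 3 → ℤ) l =
      a l := by
    intro l
    fin_cases l
    · simp
    · simp
    · simp
  refine ⟨i₃, fun l => ?_, fun l => ?_⟩
  · rw [e3, e2, e1]
    simp only [Pi.sub_apply, Pi.smul_apply, smul_eq_mul]
    linear_combination -(KN k : ℤ) * hs l
  · have e : typ i₃ l - (typ i l - a l) =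
        (typ i₃ l - (typ i₂ l - (a 2 : ℤ) * (Pi.single 2 1 : Fin 3 → ℤ) l)) +
        ((typ i₂ l - (typ i₁ l - (a 1 : ℤ) * (Pi.single 1 1 : Fin 3 → ℤ) l)) +
        (typ i₁ l - (typ i l - (a 0 : ℤ) * (Pi.single 0 1 : Fin 3 → ℤ) l))) := by
      linear_combination -hs l
    rw [e]
    exact dvd_add (f3 l) (dvd_add (f2 l) (f1 l))

/-- **rigidity** -/
theorem rigid (h : ∀ x : Fin 3 → ℤ, ∃! i : ι, x - pos i ∈ DD k (typ i)) (i i' : ι) :
    ∃ z : Fin 3 → ℤ, pos i' = pos i + (KN k : ℤ) • z ∧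
      ∀ j, (k : ℤ) ∣ typ i' j - typ i j - z j := by
  have hM := ok_LL k (typ i)
  have hK : 0 < (KN k : ℤ) := by unfold Ok at hM; omega
  set z : Fin 3 → ℤ := fun l => (pos i' l - pos i l) / (KN k : ℤ) with hz
  obtain ⟨i₁, e1, f1⟩ := down_all h (fun l => (-(z l)).toNat) i
  obtain ⟨i₂, e2, f2⟩ := down_all h (fun l => (z l).toNat) i'
  have hzz : ∀ l, ((z l).toNat : ℤ) - ((-(z l)).toNat : ℤ) = z l := fun l => by omega
  have hd : ∀ l, pos i₂ l - pos i₁ l = (pos i' l - pos i l) % (KN k : ℤ) := fun l => by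
    rw [e1, e2]
    have h1 := Int.emod_add_mul_ediv (pos i' l - pos i l) (KN k : ℤ)
    have h2 : (KN k : ℤ) * ((pos i' l - pos i l) / (KN k : ℤ)) =
        (KN k : ℤ) * (((z l).toNat : ℤ) - ((-(z l)).toNat : ℤ)) := by rw [hzz]
    linear_combination h2 - h1
  have hr : ∀ l, 0 ≤ (pos i' l - pos i l) % (KN k : ℤ) ∧
      (pos i' l - pos i l) % (KN k : ℤ) < KN k := fun l =>
    ⟨Int.emod_nonneg _ hK.ne', Int.emod_lt_of_pos _ hK⟩
  have heq : i₁ = i₂ := by
    refine far_of_ne h ?_ ?_ ?_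
    · rw [hd]; exact ⟨by linarith [(hr 0).1], (hr 0).2⟩
    · rw [hd]; exact ⟨by linarith [(hr 1).1], (hr 1).2⟩
    · rw [hd]; exact ⟨by linarith [(hr 2).1], (hr 2).2⟩
  subst heq
  refine ⟨z, ?_, fun l => ?_⟩
  · funext l
    have h1 := e1 l
    have h2 := e2 l
    simp only [Pi.add_apply, Pi.smul_apply, smul_eq_mul]
    linear_combination h1 - h2 + (KN k : ℤ) * hzz l
  · have h1 := f1 l
    have h2 := f2 l
    have h3 := dvd_sub h1 h2
    have h4 : typ i' l - typ i l - z l = typ i₁ l - (typ i l - ((-(z l)).toNat : ℤ)) -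
        (typ i₁ l - (typ i' l - ((z l).toNat : ℤ))) := by
      linear_combination hzz l
    rw [h4]
    exact h3

/-- block (3) -/
theorem stJig : StJig := by
  intro k hk
  have : NeZero k := ⟨by omega⟩
  refine ⟨KN k, ?_, DD k, fun p q h => DD_congr h, fun x => ?_, fun p => conn_DD,
    fun p b => adj_DD p b, fun ι pos typ h i i' => rigid h i i'⟩
  · unfold KN
    omega
  · obtain ⟨p, hp⟩ := tiling_exists k x
    exact ⟨p, hp, fun q hq => tiling_unique hq hp⟩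

end Vale.Agent.P043.H870
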